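import Vale.Agent.H27.P101.Defs

/-!
# P101: a finite-dimensional irreducible representation of `A` gives a character of `F_ω(A)`
-/

namespace Vale.Agent.H27.P101

open Filter Topology

variable {A : Type*} [CStarAlgebra A]

/-- A bounded sequence in a proper normed group converges along every ultrafilter. -/
theorem exists_tendsto_of_bdd {B : Type*} [NormedAddCommGroup B] [ProperSpace B]
    (ω : Ultrafilter ℕ) (u : ℕ → B) (C : ℝ) (hu : ∀ n, ‖u n‖ ≤ C) :
    ∃ x : B, Tendsto u (ω : Filter ℕ) (𝓝 x) := by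
  have hc : IsCompact (Metric.closedBall (0 : B) C) := isCompact_closedBall 0 C
  have hmem : Metric.closedBall (0 : B) C ∈ ω.map u := by
    rw [Ultrafilter.mem_map]
    refine Filter.univ_mem' (fun n => ?_)
    simpa using hu n
  obtain ⟨x, -, hx⟩ := hc.ultrafilter_le_nhds' (ω.map u) hmem
  exact ⟨x, hx⟩

theorem isCentralSeq_one (ω : Ultrafilter ℕ) : IsCentralSeq ω (fun _ : ℕ => (1 : A)) := by
  refine ⟨⟨‖(1 : A)‖, fun _ => le_rfl⟩, fun x => ?_⟩
  simp

theorem isCentralSeq_add {ω : Ultrafilter ℕ} {a b : ℕ → A} (ha : IsCentralSeq ω a)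
    (hb : IsCentralSeq ω b) : IsCentralSeq ω (fun n => a n + b n) := by
  obtain ⟨⟨Ca, hCa⟩, ha2⟩ := ha
  obtain ⟨⟨Cb, hCb⟩, hb2⟩ := hb
  refine ⟨⟨Ca + Cb, fun n => (norm_add_le _ _).trans (add_le_add (hCa n) (hCb n))⟩, fun x => ?_⟩
  have h := (ha2 x).add (hb2 x)
  rw [add_zero] at h
  refine squeeze_zero (fun n => norm_nonneg _) (fun n => ?_) h
  have : (a n + b n) * x - x * (a n + b n) = (a n * x - x * a n) + (b n * x - x * b n) := by
    noncomm_ring
  rw [this]
  exact norm_add_le _ _

theorem isCentralSeq_mul {ω : Ultrafilter ℕ} {a b : ℕ → A} (ha : IsCentralSeq ω a)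
    (hb : IsCentralSeq ω b) : IsCentralSeq ω (fun n => a n * b n) := by
  obtain ⟨⟨Ca, hCa⟩, ha2⟩ := ha
  obtain ⟨⟨Cb, hCb⟩, hb2⟩ := hb
  have hCa0 : 0 ≤ Ca := (norm_nonneg _).trans (hCa 0)
  refine ⟨⟨Ca * Cb, fun n => (norm_mul_le _ _).trans
    (mul_le_mul (hCa n) (hCb n) (norm_nonneg _) hCa0)⟩, fun x => ?_⟩
  have h := ((hb2 x).const_mul Ca).add ((ha2 x).mul_const Cb)
  rw [mul_zero, zero_mul, add_zero] at h
  refine squeeze_zero (fun n => norm_nonneg _) (fun n => ?_) h
  have : a n * b n * x - x * (a n * b n)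
      = a n * (b n * x - x * b n) + (a n * x - x * a n) * b n := by
    noncomm_ring
  rw [this]
  refine (norm_add_le _ _).trans (add_le_add ?_ ?_)
  · exact (norm_mul_le _ _).trans (mul_le_mul_of_nonneg_right (hCa n) (norm_nonneg _))
  · exact (norm_mul_le _ _).trans (mul_le_mul_of_nonneg_left (hCb n) (norm_nonneg _))

theorem isCentralSeq_smul {ω : Ultrafilter ℕ} {a : ℕ → A} (ha : IsCentralSeq ω a) (c : ℂ) :
    IsCentralSeq ω (fun n => c • a n) := by
  obtain ⟨⟨Ca, hCa⟩, ha2⟩ := ha
  refine ⟨⟨‖c‖ * Ca, fun n => ?_⟩, fun x => ?_⟩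
  · rw [norm_smul]
    exact mul_le_mul_of_nonneg_left (hCa n) (norm_nonneg _)
  · have h := (ha2 x).const_mul ‖c‖
    rw [mul_zero] at h
    refine squeeze_zero (fun n => norm_nonneg _) (fun n => ?_) h
    have : c • a n * x - x * (c • a n) = c • (a n * x - x * a n) := by
      rw [smul_mul_assoc, mul_smul_comm, smul_sub]
    rw [this, norm_smul]

theorem isCentralSeq_star {ω : Ultrafilter ℕ} {a : ℕ → A} (ha : IsCentralSeq ω a) :
    IsCentralSeq ω (fun n => star (a n)) := by
  obtain ⟨⟨Ca, hCa⟩, ha2⟩ := ha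
  refine ⟨⟨Ca, fun n => by rw [norm_star]; exact hCa n⟩, fun x => ?_⟩
  have h := ha2 (star x)
  refine squeeze_zero (fun n => norm_nonneg _) (fun n => ?_) h
  have : star (a n) * x - x * star (a n) = -star (a n * star x - star x * a n) := by
    simp [star_sub, star_mul]
  rw [this, norm_neg, norm_star]

/-- **Main theorem.**  If the unital C⋆-algebra `A` has a unital `*`-homomorphism onto a
nonzero finite-dimensional C⋆-algebra `B` with trivial centre, then `F_ω(A)` has a character. -/
theorem centralSeqHasCharacter_of_surjective {B : Type*} [CStarAlgebra B]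
    [FiniteDimensional ℂ B] [Nontrivial B] (ω : Ultrafilter ℕ) (π : A →⋆ₐ[ℂ] B)
    (hπ : Function.Surjective π)
    (hB : ∀ z : B, (∀ y : B, z * y = y * z) → ∃ c : ℂ, z = algebraMap ℂ B c) :
    CentralSeqHasCharacter A ω := by
  classical
  have : ProperSpace B := FiniteDimensional.proper ℂ B
  have hcontr : ∀ x : A, ‖π x‖ ≤ ‖x‖ := fun x => NonUnitalStarAlgHom.norm_apply_le π x
  have hinj : Function.Injective (algebraMap ℂ B) := (algebraMap ℂ B).injective
  -- the limit along `ω` of the image sequence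
  have hex : ∀ a : ℕ → A, IsBddSeq a →
      ∃ y : B, Tendsto (fun n => π (a n)) (ω : Filter ℕ) (𝓝 y) := by
    rintro a ⟨C, hC⟩
    exact exists_tendsto_of_bdd ω _ C (fun n => (hcontr _).trans (hC n))
  let L : (ℕ → A) → B := fun a => limUnder (ω : Filter ℕ) (fun n => π (a n))
  have hL : ∀ a : ℕ → A, IsBddSeq a → Tendsto (fun n => π (a n)) (ω : Filter ℕ) (𝓝 (L a)) := by
    intro a ha
    obtain ⟨y, hy⟩ := hex a ha
    exact tendsto_nhds_limUnder ⟨y, hy⟩
  -- the limit of a central sequence is central in `B`, hence a scalar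
  have hcomm : ∀ a : ℕ → A, IsCentralSeq ω a → ∀ y : B, L a * y = y * L a := by
    intro a ha y
    obtain ⟨x, rfl⟩ := hπ y
    have h1 : Tendsto (fun n => π (a n) * π x - π x * π (a n)) (ω : Filter ℕ)
        (𝓝 (L a * π x - π x * L a)) :=
      ((hL a ha.1).mul_const _).sub ((hL a ha.1).const_mul _)
    have h2 : Tendsto (fun n => π (a n) * π x - π x * π (a n)) (ω : Filter ℕ) (𝓝 0) := by
      rw [tendsto_zero_iff_norm_tendsto_zero]
      refine squeeze_zero (fun n => norm_nonneg _) (fun n => ?_) (ha.2 x)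
      have : π (a n) * π x - π x * π (a n) = π (a n * x - x * a n) := by
        simp [map_sub, map_mul]
      rw [this]
      exact hcontr _
    exact sub_eq_zero.mp (tendsto_nhds_unique h1 h2)
  let φ : (ℕ → A) → ℂ := fun a => Classical.epsilon (fun c : ℂ => L a = algebraMap ℂ B c)
  have hφ : ∀ a : ℕ → A, IsCentralSeq ω a → L a = algebraMap ℂ B (φ a) := fun a ha =>
    Classical.epsilon_spec (p := fun c : ℂ => L a = algebraMap ℂ B c) (hB (L a) (hcomm a ha))
  refine ⟨φ, ?_, ?_, ?_, ?_⟩
  · -- unital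
    have h1 := isCentralSeq_one (A := A) ω
    have hL1 : L (fun _ => (1 : A)) = 1 := by
      have h2 : Tendsto (fun _ : ℕ => π (1 : A)) (ω : Filter ℕ) (𝓝 1) := by
        rw [map_one]
        exact tendsto_const_nhds
      exact tendsto_nhds_unique (hL _ h1.1) h2
    apply hinj
    rw [← hφ _ h1, hL1, map_one]
  · -- additive and multiplicative
    intro a b ha hb
    have hadd : L (fun n => a n + b n) = L a + L b := by
      have h2 : Tendsto (fun n => π (a n + b n)) (ω : Filter ℕ) (𝓝 (L a + L b)) := by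
        simp only [map_add]
        exact (hL a ha.1).add (hL b hb.1)
      exact tendsto_nhds_unique (hL _ (isCentralSeq_add ha hb).1) h2
    have hmul : L (fun n => a n * b n) = L a * L b := by
      have h2 : Tendsto (fun n => π (a n * b n)) (ω : Filter ℕ) (𝓝 (L a * L b)) := by
        simp only [map_mul]
        exact (hL a ha.1).mul (hL b hb.1)
      exact tendsto_nhds_unique (hL _ (isCentralSeq_mul ha hb).1) h2
    constructor
    · apply hinj
      rw [← hφ _ (isCentralSeq_add ha hb), hadd, hφ a ha, hφ b hb, map_add]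
    · apply hinj
      rw [← hφ _ (isCentralSeq_mul ha hb), hmul, hφ a ha, hφ b hb, map_mul]
  · -- homogeneous and star-preserving
    intro c a ha
    have hsmul : L (fun n => c • a n) = c • L a := by
      have h2 : Tendsto (fun n => π (c • a n)) (ω : Filter ℕ) (𝓝 (c • L a)) := by
        simp only [map_smul]
        exact (hL a ha.1).const_smul c
      exact tendsto_nhds_unique (hL _ (isCentralSeq_smul ha c).1) h2
    have hstar : L (fun n => star (a n)) = star (L a) := by
      have h2 : Tendsto (fun n => π (star (a n))) (ω : Filter ℕ) (𝓝 (star (L a))) := by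
        simp only [map_star]
        exact (hL a ha.1).star
      exact tendsto_nhds_unique (hL _ (isCentralSeq_star ha).1) h2
    constructor
    · apply hinj
      rw [← hφ _ (isCentralSeq_smul ha c), hsmul, hφ a ha, map_mul, Algebra.smul_def]
    · apply hinj
      rw [← hφ _ (isCentralSeq_star ha), hstar, hφ a ha, algebraMap_star_comm]
  · -- vanishes on null sequences
    intro a ha hnull
    have h2 : Tendsto (fun n => π (a n)) (ω : Filter ℕ) (𝓝 0) := by
      rw [tendsto_zero_iff_norm_tendsto_zero]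
      exact squeeze_zero (fun n => norm_nonneg _) (fun n => hcontr _) hnull
    have hL0 : L a = 0 := tendsto_nhds_unique (hL a ha.1) h2
    apply hinj
    rw [← hφ a ha, hL0, map_zero]

end Vale.Agent.H27.P101
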