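import Mathlib

/-!
# P101: the central sequence algebra `F_ω(A)`, on representatives (statement-level definitions)

`A_ω` is the algebra of bounded sequences of `A` modulo the sequences whose norms tend to `0`
along `ω`, and `F_ω(A) = A_ω ∩ A'`.  An element of `F_ω(A)` is the class of a *central*
sequence: a bounded sequence `a` with `‖a n * x - x * a n‖ → 0` along `ω` for every `x : A`;
two central sequences give the same element exactly when their difference is *null*.
A character of `F_ω(A)` (a unital `*`-homomorphism to `ℂ`) is therefore the same thing as a map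
`φ` on sequences which is unital, additive, multiplicative, `ℂ`-homogeneous and `*`-preserving on
central sequences and vanishes on the central null sequences.
-/

namespace Vale.Agent.H27.P101

open Filter Topology

variable {A : Type*} [CStarAlgebra A]

/-- The sequence `a` is bounded (an element of `ℓ^∞(ℕ, A)`). -/
def IsBddSeq (a : ℕ → A) : Prop := ∃ C : ℝ, ∀ n, ‖a n‖ ≤ C

/-- The sequence `a` is null along `ω`: `‖a n‖ → 0` along `ω`. -/
def IsNullSeq (ω : Ultrafilter ℕ) (a : ℕ → A) : Prop :=
  Tendsto (fun n => ‖a n‖) (ω : Filter ℕ) (𝓝 0)

/-- The sequence `a` is central along `ω`: it is bounded and asymptotically commutes with every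
element of `A`, so it represents an element of `F_ω(A) = A_ω ∩ A'`. -/
def IsCentralSeq (ω : Ultrafilter ℕ) (a : ℕ → A) : Prop :=
  IsBddSeq a ∧ ∀ x : A, Tendsto (fun n => ‖a n * x - x * a n‖) (ω : Filter ℕ) (𝓝 0)

/-- `F_ω(A)` has a character: there is a map `φ` from sequences to `ℂ` which takes the value `1`
at the constant sequence `1`, is additive, multiplicative, `ℂ`-homogeneous and `*`-preserving on
central sequences, and vanishes on central null sequences (so it is well defined on
`F_ω(A)` = central sequences modulo null sequences, and is a unital `*`-homomorphism there). -/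
def CentralSeqHasCharacter (A : Type*) [CStarAlgebra A] (ω : Ultrafilter ℕ) : Prop :=
  ∃ φ : (ℕ → A) → ℂ,
    φ (fun _ => 1) = 1 ∧
    (∀ a b : ℕ → A, IsCentralSeq ω a → IsCentralSeq ω b →
      φ (fun n => a n + b n) = φ a + φ b ∧ φ (fun n => a n * b n) = φ a * φ b) ∧
    (∀ (c : ℂ) (a : ℕ → A), IsCentralSeq ω a →
      φ (fun n => c • a n) = c * φ a ∧ φ (fun n => star (a n)) = star (φ a)) ∧
    (∀ a : ℕ → A, IsCentralSeq ω a → IsNullSeq ω a → φ a = 0)

end Vale.Agent.H27.P101
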