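import Vale.Agent.H27.P101.Defs

/-!
# P101: characters of `F_ω` pull back along surjective `*`-homomorphisms

A surjective unital `*`-homomorphism `ρ : A → C` maps central sequences of `A` to central
sequences of `C` (termwise), and null sequences to null sequences; so a character of `F_ω(C)`
composed with `ρ` is a character of `F_ω(A)`.
-/

namespace Vale.Agent.H27.P101

open Filter Topology

variable {A C : Type*} [CStarAlgebra A] [CStarAlgebra C]

theorem isCentralSeq_map (ω : Ultrafilter ℕ) (ρ : A →⋆ₐ[ℂ] C) (hρ : Function.Surjective ρ)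
    {a : ℕ → A} (ha : IsCentralSeq ω a) : IsCentralSeq ω (fun n => ρ (a n)) := by
  have hcontr : ∀ x : A, ‖ρ x‖ ≤ ‖x‖ := fun x => NonUnitalStarAlgHom.norm_apply_le ρ x
  obtain ⟨⟨Ca, hCa⟩, ha2⟩ := ha
  refine ⟨⟨Ca, fun n => (hcontr _).trans (hCa n)⟩, fun y => ?_⟩
  obtain ⟨x, rfl⟩ := hρ y
  refine squeeze_zero (fun n => norm_nonneg _) (fun n => ?_) (ha2 x)
  have : ρ (a n) * ρ x - ρ x * ρ (a n) = ρ (a n * x - x * a n) := by
    simp [map_sub, map_mul]
  rw [this]
  exact hcontr _

theorem isNullSeq_map (ω : Ultrafilter ℕ) (ρ : A →⋆ₐ[ℂ] C) {a : ℕ → A} (ha : IsNullSeq ω a) :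
    IsNullSeq ω (fun n => ρ (a n)) :=
  squeeze_zero (fun _ => norm_nonneg _) (fun n => NonUnitalStarAlgHom.norm_apply_le ρ (a n)) ha

/-- If `ρ : A → C` is a surjective unital `*`-homomorphism and `F_ω(C)` has a character, then
`F_ω(A)` has a character. -/
theorem centralSeqHasCharacter_of_quotient (ω : Ultrafilter ℕ) (ρ : A →⋆ₐ[ℂ] C)
    (hρ : Function.Surjective ρ) (h : CentralSeqHasCharacter C ω) :
    CentralSeqHasCharacter A ω := by
  obtain ⟨ψ, h1, h2, h3, h4⟩ := h
  refine ⟨fun a => ψ (fun n => ρ (a n)), ?_, ?_, ?_, ?_⟩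
  · simpa using h1
  · intro a b ha hb
    have := h2 _ _ (isCentralSeq_map ω ρ hρ ha) (isCentralSeq_map ω ρ hρ hb)
    simpa [map_add, map_mul] using this
  · intro c a ha
    have := h3 c _ (isCentralSeq_map ω ρ hρ ha)
    simpa [map_smul, map_star] using this
  · intro a ha hn
    exact h4 _ (isCentralSeq_map ω ρ hρ ha) (isNullSeq_map ω ρ hn)

end Vale.Agent.H27.P101
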